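import Vale.Agent.P121.H414.K.Riesz

open MeasureTheory Set
open scoped ENNReal NNReal ContDiff

namespace Vale.Agent.Results.P121.AKernel

open Vale.Agent.P121 in
/-- (1) In every nonempty open set `Ω` of three-space there is a probability measure `μ` with a
density in `C_c^∞(Ω)` and with finite three-marginal Coulomb Kantorovich value which has no
optimal Monge plan. (2) The same for the `N`-marginal Coulomb problem in every open subset of
`d`-space, for all `N ≥ 3` and `d ≥ 2`. (3) The same for every pair potential `k` with a convex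
singularity at `0` instead of the Coulomb potential; the support of the density is then so small
that `k` is positive at all its distances. (4) All Riesz potentials `r ^ (-s)`, `s > 0`, and the
logarithmic potential `-log r` have a convex singularity at `0`. -/
theorem result :
    (∀ Ω : Set (EuclideanSpace ℝ (Fin 3)), IsOpen Ω → Ω.Nonempty →
      ∃ μ f, HasTestDensity Ω f μ ∧ kantorovich μ < ⊤ ∧ ¬ HasOptimalMongePlan μ) ∧
    (∀ N d : ℕ, 3 ≤ N → 2 ≤ d →
      ∀ Ω : Set (EuclideanSpace ℝ (Fin d)), IsOpen Ω → Ω.Nonempty →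
      ∃ μ f, HasTestDensity Ω f μ ∧ kantorovichN N μ < ⊤ ∧ ¬ HasOptimalMongePlanN N μ) ∧
    (∀ k : ℝ → ℝ, HasConvexSingularity k → ∀ N d : ℕ, 3 ≤ N → 2 ≤ d →
      ∀ Ω : Set (EuclideanSpace ℝ (Fin d)), IsOpen Ω → Ω.Nonempty →
      ∃ μ f, HasTestDensity Ω f μ ∧
        (∀ x ∈ tsupport f, ∀ y ∈ tsupport f, x ≠ y → 0 < k (dist x y)) ∧
        kantorovichK k N μ < ⊤ ∧ ¬ HasOptimalMongePlanK k N μ) ∧
    (∀ s : ℝ, 0 < s → HasConvexSingularity (fun r => r ^ (-s))) ∧
    HasConvexSingularity (fun r => -Real.log r) := by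
  refine ⟨?_, fun N d hN hd Ω hΩ hne => H414.K.final_coulomb N d hN hd Ω hΩ hne,
    fun k hk N d hN hd Ω hΩ hne => H414.K.final_kernel k hk N d hN hd Ω hΩ hne,
    fun s hs => H414.K.riesz_kernel hs, H414.K.log_kernel⟩
  intro Ω hΩ hne
  obtain ⟨μ, f, h1, h9, h10⟩ := H414.K.final_coulomb 3 3 le_rfl (by norm_num) Ω hΩ hne
  refine ⟨μ, f, h1, ?_, fun h => h10 (H414.hasOptimal_three μ h)⟩
  rw [H414.kantorovich_three]
  exact h9

end Vale.Agent.Results.P121.AKernel
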