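import Vale.Agent.P121.H414.Three

open MeasureTheory Set
open scoped ENNReal NNReal ContDiff

namespace Vale.Agent.Results.P121.ASmooth

/-- The three-marginal Coulomb problem in three-space has a probability measure with a
`C^∞`, compactly supported density and finite Kantorovich value without optimal Monge plan (first
part), and the same holds for every number `N ≥ 3` of particles in every dimension `d ≥ 2`
(second part). -/
theorem result :
    (∃ (μ : Measure (EuclideanSpace ℝ (Fin 3))) (f : EuclideanSpace ℝ (Fin 3) → ℝ),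
      ContDiff ℝ ∞ f ∧ HasCompactSupport f ∧ (∀ x, 0 ≤ f x) ∧
      μ = volume.withDensity (fun x => ENNReal.ofReal (f x)) ∧
      IsProbabilityMeasure μ ∧ μ ≪ volume ∧
      (∃ C : ℝ≥0, μ ≤ C • volume) ∧
      (∃ S : Set (EuclideanSpace ℝ (Fin 3)), IsCompact S ∧ μ Sᶜ = 0) ∧
      Vale.Agent.P121.kantorovich μ < ⊤ ∧
      ¬ Vale.Agent.P121.HasOptimalMongePlan μ) ∧
    ∀ N d : ℕ, 3 ≤ N → 2 ≤ d →
      ∃ (μ : Measure (EuclideanSpace ℝ (Fin d))) (f : EuclideanSpace ℝ (Fin d) → ℝ),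
        ContDiff ℝ ∞ f ∧ HasCompactSupport f ∧ (∀ x, 0 ≤ f x) ∧
        μ = volume.withDensity (fun x => ENNReal.ofReal (f x)) ∧
        IsProbabilityMeasure μ ∧ μ ≪ volume ∧
        (∃ C : ℝ≥0, μ ≤ C • volume) ∧
        (∃ S : Set (EuclideanSpace ℝ (Fin d)), IsCompact S ∧ μ Sᶜ = 0) ∧
        Vale.Agent.P121.kantorovichN N μ < ⊤ ∧
        ¬ Vale.Agent.P121.HasOptimalMongePlanN N μ := by
  refine ⟨?_, fun N d hN hd => Vale.Agent.P121.H414.final_smooth N d hN hd⟩
  obtain ⟨μ, f, h1, h2, h3, h4, h5, h6, h7, h8, h9, h10⟩ :=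
    Vale.Agent.P121.H414.final_smooth 3 3 le_rfl (by norm_num)
  refine ⟨μ, f, h1, h2, h3, h4, h5, h6, h7, h8, ?_, fun h => h10 ?_⟩
  · rw [Vale.Agent.P121.H414.kantorovich_three]
    exact h9
  · exact Vale.Agent.P121.H414.hasOptimal_three μ h

end Vale.Agent.Results.P121.ASmooth
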